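import Mathlib
import Vale.Agent.P231.Bd3.B3

/-! P211, route T: the midpoint of a minimal geodesic and the exponential chart centred there. -/

set_option maxSynthPendingDepth 3
set_option linter.unusedSectionVars false

namespace Vale.Agent.P211.H580

open scoped Manifold ContDiff Topology
open Bundle Filter MeasureTheory Set
open Vale.Agent.P234 Vale.Agent.P231

noncomputable section

variable {E : Type*} [NormedAddCommGroup E] [NormedSpace ℝ E] [FiniteDimensional ℝ E]
  {M : Type*} [MetricSpace M] [ChartedSpace E M] [IsManifold 𝓘(ℝ, E) ∞ M]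
  [RiemannianBundle (fun x : M => TangentSpace 𝓘(ℝ, E) x)]
  [IsContMDiffRiemannianBundle 𝓘(ℝ, E) ∞ E (fun x : M => TangentSpace 𝓘(ℝ, E) x)]
  [CompactSpace M]

variable {e : ∀ x : M, TangentSpace 𝓘(ℝ, E) x → M}

/-- A minimising vector at whose end point the cost is smooth lies in the injectivity domain. -/
theorem mem_injDomain_of_smoothAt (F : Facts e) {z : M} {v : TangentSpace 𝓘(ℝ, E) z}
    (hv : v ∈ segMin e z) (hs : SmoothAt E z (e z v)) : v ∈ injDomain e z := by
  have h2 := eventually_logMap_exp F.isExp F.hopfRinow hv hs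
  have h1 := eventually_logMap F.isExp F.hopfRinow hs
  have h3 := (contMDiff_exp_fiber F.isExp z).continuous.continuousAt.eventually h1
  have h4 : ∀ᶠ b in 𝓝 v, b ∈ segMin e z := by
    filter_upwards [h2, h3] with b hb hb'
    rw [hb] at hb'
    exact hb'.1
  have h5 : Tendsto (fun a : ℝ => a • v) (𝓝 1) (𝓝 ((1 : ℝ) • v)) :=
    (continuous_id.smul continuous_const).continuousAt
  rw [one_smul] at h5
  have h6 : ∀ᶠ a : ℝ in 𝓝[>] (1 : ℝ), a • v ∈ segMin e z :=
    (h5.eventually h4).filter_mono nhdsWithin_le_nhds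
  obtain ⟨a, ha, ha1⟩ := (h6.and self_mem_nhdsWithin).exists
  exact (mem_injDomain_iff F.isExp).mpr ⟨a, ha1, ha⟩

/-- The midpoint of a minimal geodesic: the geodesic is `t ↦ e z (t • v)`, `-1 ≤ t ≤ 1`, and lies
in the image of the injectivity domain of its midpoint `z`. -/
theorem midpoint (F : Facts e) (x y : M) :
    ∃ (z : M) (v : TangentSpace 𝓘(ℝ, E) z), 2 * ‖v‖ = dist x y ∧ e z (-v) = x ∧ e z v = y ∧
      ∀ t : ℝ, |t| ≤ 1 → t • v ∈ injDomain e z := by
  obtain ⟨u, hu, hd⟩ := F.hopfRinow x y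
  have hmin : u ∈ segMin e x := by
    change dist x (e x u) = ‖u‖
    rw [hu, hd]
  obtain ⟨w, hw, hfl⟩ := F.flow x u (1 / 2)
  refine ⟨e x ((1 / 2 : ℝ) • u), (1 / 2 : ℝ) • w, ?_, ?_, ?_, ?_⟩
  · rw [norm_smul, hw, hd, Real.norm_eq_abs, abs_of_pos (by norm_num : (0 : ℝ) < 1 / 2)]
    ring
  · rw [← neg_smul, hfl]
    norm_num
    exact F.isExp.map_zero x
  · rw [hfl]
    norm_num
    exact hu
  · intro t ht
    rw [abs_le] at ht
    have hval : ∀ r : ℝ, e (e x ((1 / 2 : ℝ) • u)) (r • (1 / 2 : ℝ) • w) =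
        e x ((1 / 2 + r / 2) • u) := by
      intro r
      rw [smul_smul, hfl]
      congr 2
      ring
    have hnorm : ∀ r : ℝ, ‖r • (1 / 2 : ℝ) • w‖ = |r| * (‖u‖ / 2) := by
      intro r
      rw [norm_smul, norm_smul, hw, Real.norm_eq_abs, Real.norm_eq_abs,
        abs_of_pos (by norm_num : (0 : ℝ) < 1 / 2)]
      ring
    refine mem_injDomain_of_smoothAt F ?_ ?_
    · change dist _ _ = _
      rw [hval, hnorm, segMin_dist_abs F.isExp hmin (by norm_num) (by norm_num)
        (by linarith) (by linarith)]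
      have h1 : 1 / 2 + t / 2 - 1 / 2 = t * (1 / 2) := by ring
      rw [h1, abs_mul, abs_of_pos (by norm_num : (0 : ℝ) < 1 / 2)]
      ring
    · rw [hval]
      refine F.smooth_between hmin (by norm_num) (by norm_num) (by linarith) (by linarith) ?_
      rw [abs_lt]
      constructor <;> linarith

end

end Vale.Agent.P211.H580
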