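import Mathlib
import Vale.Agent.P211.H580.Mid

/-! P211, route T: the metric package of the exponential chart (open domain, immersion, constant
speed of rays, energy bound of the distance). -/

set_option maxSynthPendingDepth 3
set_option linter.unusedSectionVars false

namespace Vale.Agent.P211.H580

open scoped Manifold ContDiff Topology
open Bundle Manifold Filter MeasureTheory Set
open Vale.Agent.P234 Vale.Agent.P231

noncomputable section

/-- a curve of class `C^n` in the tangent bundle of a vector space -/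
theorem contMDiff_curve_mk' {V : Type*} [NormedAddCommGroup V] [NormedSpace ℝ V] {c d : ℝ → V}
    {n : ℕ∞ω} (hc : ContDiff ℝ n c) (hd : ContDiff ℝ n d) :
    ContMDiff 𝓘(ℝ, ℝ) 𝓘(ℝ, V).tangent n (fun t : ℝ => (⟨c t, d t⟩ : TangentBundle 𝓘(ℝ, V) V)) := by
  intro t
  rw [Bundle.contMDiffAt_totalSpace]
  refine ⟨hc.contMDiff.contMDiffAt, ?_⟩
  refine (hd.contMDiff.contMDiffAt (x := t)).congr_of_eventuallyEq
    (Filter.Eventually.of_forall fun w => ?_)
  simp

/-- Cauchy-Schwarz on an interval. -/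
theorem sq_integral_le {f : ℝ → ℝ} (hf : Continuous f) {a b : ℝ} (hab : a ≤ b) :
    (∫ t in a..b, f t) ^ 2 ≤ (b - a) * ∫ t in a..b, f t ^ 2 := by
  rcases hab.eq_or_lt with rfl | hab
  · simp
  have hba : 0 < b - a := by linarith
  set I := ∫ t in a..b, f t with hI
  have h1 : 0 ≤ ∫ t in a..b, (f t - I / (b - a)) ^ 2 :=
    intervalIntegral.integral_nonneg hab.le fun t _ => sq_nonneg _
  have h2 : ∫ t in a..b, (f t - I / (b - a)) ^ 2 =
      (∫ t in a..b, f t ^ 2) - I ^ 2 / (b - a) := by
    have e1 : (fun t => (f t - I / (b - a)) ^ 2) =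
        fun t => (f t ^ 2 - 2 * (I / (b - a)) * f t) + (I / (b - a)) ^ 2 := by
      funext t
      ring
    rw [e1, intervalIntegral.integral_add, intervalIntegral.integral_sub,
      intervalIntegral.integral_const_mul, intervalIntegral.integral_const, ← hI, smul_eq_mul]
    · field_simp
      ring
    · exact (hf.pow 2).intervalIntegrable _ _
    · exact (continuous_const.mul hf).intervalIntegrable _ _
    · exact ((hf.pow 2).sub (continuous_const.mul hf)).intervalIntegrable _ _
    · exact continuous_const.intervalIntegrable _ _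
  rw [h2, sub_nonneg, div_le_iff₀ hba] at h1
  linarith

variable {E : Type*} [NormedAddCommGroup E] [NormedSpace ℝ E] [FiniteDimensional ℝ E]
  {M : Type*} [MetricSpace M] [ChartedSpace E M] [IsManifold 𝓘(ℝ, E) ∞ M]
  [RiemannianBundle (fun x : M => TangentSpace 𝓘(ℝ, E) x)]
  [IsContMDiffRiemannianBundle 𝓘(ℝ, E) ∞ E (fun x : M => TangentSpace 𝓘(ℝ, E) x)]

/-- The identity from the model space to the tangent space with its Riemannian norm. -/
def idT (z : M) : E →L[ℝ] TangentSpace 𝓘(ℝ, E) z := ContinuousLinearMap.id ℝ E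

theorem contDiff_idT0 (z : M) {n : ℕ∞ω} : ContDiff ℝ n (fun u : E => idT z u) :=
  IsBoundedLinearMap.contDiff (E := E) (F := TangentSpace 𝓘(ℝ, E) z)
    (ContinuousLinearMap.isBoundedLinearMap (E := E) (F := TangentSpace 𝓘(ℝ, E) z) (idT z))

theorem contDiff_idT (z : M) {c : ℝ → E} {n : ℕ∞ω} (hc : ContDiff ℝ n c) :
    ContDiff ℝ n (fun t => idT z (c t)) :=
  (contDiff_idT0 z).comp hc

theorem hasDerivAt_idT (z : M) {c : ℝ → E} {c' : E} {t : ℝ} (hc : HasDerivAt c c' t) :
    HasDerivAt (fun t => idT z (c t)) (idT z c') t :=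
  HasFDerivAt.comp_hasDerivAt t (ContinuousLinearMap.hasFDerivAt (idT z)) hc

variable {e : ∀ x : M, TangentSpace 𝓘(ℝ, E) x → M}

/-- continuity of the differential of the exponential map along continuous data -/
theorem continuous_dE (he : IsExp e) (z : M) {c d : ℝ → E} (hc : Continuous c)
    (hd : Continuous d) :
    Continuous (fun t : ℝ => tb (e z (c t)) (dE e z (c t) (d t))) := by
  have h0 : ContDiff ℝ 0 (fun t => idT z (c t)) :=
    contDiff_zero.2 ((idT z).continuous.comp hc)
  have h1 : ContDiff ℝ 0 (fun t => idT z (d t)) :=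
    contDiff_zero.2 ((idT z).continuous.comp hd)
  have h2 := (contMDiff_curve_mk' h0 h1).continuous
  have h3 : ContMDiff 𝓘(ℝ, TangentSpace 𝓘(ℝ, E) z).tangent 𝓘(ℝ, E).tangent ∞
      (tangentMap 𝓘(ℝ, TangentSpace 𝓘(ℝ, E) z) 𝓘(ℝ, E) (e z)) :=
    (contMDiff_exp_fiber he z).contMDiff_tangentMap (by simp)
  exact h3.continuous.comp h2

theorem continuous_speed (he : IsExp e) (z : M) {c d : ℝ → E} (hc : Continuous c)
    (hd : Continuous d) :
    Continuous (fun t : ℝ => nm (e z (c t)) (dE e z (c t) (d t))) :=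
  (continuous_norm_snd (E := E) (M := M)).comp (continuous_dE he z hc hd)

/-- the curve `t ↦ e z (c t)` is of class `C^1` -/
theorem contMDiff_exp_comp (he : IsExp e) (z : M) {c : ℝ → E} (hc : ContDiff ℝ 1 c) :
    ContMDiff 𝓘(ℝ, ℝ) 𝓘(ℝ, E) 1 (fun t : ℝ => e z (c t)) := by
  have h0 : ContDiff ℝ 1 (fun t => idT z (c t)) := contDiff_idT z hc
  exact ((contMDiff_exp_fiber he z).of_le (by norm_cast)).comp h0.contMDiff

theorem mfderiv_exp_comp (he : IsExp e) (z : M) {c : ℝ → E} {c' : E} {t : ℝ}
    (hc : HasDerivAt c c' t) :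
    (mfderiv 𝓘(ℝ, ℝ) 𝓘(ℝ, E) (fun s => e z (c s)) t (1 : ℝ) : E) = dE e z (c t) c' := by
  exact mfderiv_exp_curve he z (hasDerivAt_idT z hc)

variable [IsRiemannianManifold 𝓘(ℝ, E) M]

/-- The distance of the end points is at most the length. -/
theorem dist_exp_le_length (he : IsExp e) (z : M) {c : ℝ → E} (hc : ContDiff ℝ 1 c) {a b : ℝ}
    (hab : a ≤ b) :
    dist (e z (c a)) (e z (c b)) ≤
      ∫ t in a..b, nm (e z (c t)) (dE e z (c t) (deriv c t)) := by
  have hcd : ∀ t, HasDerivAt c (deriv c t) t := fun t =>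
    (hc.differentiable (by simp) t).hasDerivAt
  have hcont := continuous_speed he z hc.continuous (hc.continuous_deriv (by simp))
  have h1 := (contMDiff_exp_comp he z hc).contMDiffOn (s := Icc a b)
  have h2 := riemannianEDist_le_pathELength (I := 𝓘(ℝ, E)) h1 rfl rfl hab
  rw [← IsRiemannianManifold.out (I := 𝓘(ℝ, E)) (e z (c a)) (e z (c b))] at h2
  have hnn : 0 ≤ ∫ t in a..b, nm (e z (c t)) (dE e z (c t) (deriv c t)) :=
    intervalIntegral.integral_nonneg hab fun t _ => nm_nonneg _ _
  have h3 : pathELength 𝓘(ℝ, E) (fun t => e z (c t)) a b =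
      ENNReal.ofReal (∫ t in a..b, nm (e z (c t)) (dE e z (c t) (deriv c t))) := by
    rw [pathELength_eq_lintegral_mfderiv_Icc, intervalIntegral.integral_of_le hab,
      ← MeasureTheory.integral_Icc_eq_integral_Ioc,
      MeasureTheory.ofReal_integral_eq_lintegral_ofReal]
    · refine lintegral_congr fun t => ?_
      rw [← ofReal_norm]
      have h4 := mfderiv_exp_comp he z (hcd t)
      exact congrArg (fun w : E => ENNReal.ofReal (nm (e z (c t)) w)) h4
    · exact hcont.continuousOn.integrableOn_Icc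
    · exact Filter.Eventually.of_forall fun t => nm_nonneg _ _
  rw [h3, edist_dist] at h2
  exact (ENNReal.ofReal_le_ofReal_iff hnn).1 h2

/-- The energy bound of the distance. -/
theorem dist_sq_le_energy (he : IsExp e) (z : M) {c : ℝ → E} (hc : ContDiff ℝ 1 c) {a b : ℝ}
    (hab : a ≤ b) :
    dist (e z (c a)) (e z (c b)) ^ 2 ≤
      (b - a) * ∫ t in a..b, nm (e z (c t)) (dE e z (c t) (deriv c t)) ^ 2 := by
  have hcont := continuous_speed he z hc.continuous (hc.continuous_deriv (by simp))
  exact (pow_le_pow_left₀ dist_nonneg (dist_exp_le_length he z hc hab) 2).trans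
    (sq_integral_le hcont hab)

variable [CompactSpace M]

/-- the domain of the chart is open -/
theorem isOpen_dom (F : Facts e) (z : M) : IsOpen {u : E | (u : TangentSpace 𝓘(ℝ, E) z) ∈
    injDomain e z} := F.isOpen_injDomain z

/-- the chart is an immersion -/
theorem dE_injective_of_mem (F : Facts e) {z : M} {u : E}
    (hu : (u : TangentSpace 𝓘(ℝ, E) z) ∈ injDomain e z) : Function.Injective (dE e z u) := by
  intro a b hab
  have h1 : dE e z u (a - b) = 0 := by
    have h2 := dE_add e z u (a - b) b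
    rw [sub_add_cancel, hab] at h2
    exact right_eq_add.1 h2
  have h3 : a - b = 0 := mfderiv_exp_injective F hu (a - b) h1
  exact sub_eq_zero.1 h3

/-- the chart is injective -/
theorem injOn_dom (F : Facts e) (z : M) : InjOn (e z) (injDomain e z) := by
  intro a ha b hb hab
  exact F.injDomain_unique hb (injDomain_subset_segMin F.isExp z ha) hab

/-- rays have constant speed -/
theorem speed_ray (F : Facts e) (z : M) (v : E) (t : ℝ) :
    nm (e z (t • v : E)) (dE e z (t • v) v) = nm z v :=
  nm_vel F z v t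

/-- distances along the geodesic centred at its midpoint -/
theorem dist_ray (F : Facts e) {z : M} {v : TangentSpace 𝓘(ℝ, E) z}
    (hv : dist (e z (-v)) (e z v) = 2 * ‖v‖) {s t : ℝ} (hs : |s| ≤ 1) (ht : |t| ≤ 1) :
    dist (e z (s • v)) (e z (t • v)) = |t - s| * ‖v‖ := by
  obtain ⟨w, hw, hfl⟩ := F.flow z v (-1)
  rw [abs_le] at hs ht
  have hval : ∀ r : ℝ, e z (r • v) = e (e z ((-1 : ℝ) • v)) (((r + 1) / 2) • (2 : ℝ) • w) := by
    intro r
    rw [smul_smul, hfl]
    congr 2
    ring
  have hn : ‖(2 : ℝ) • w‖ = 2 * ‖v‖ := by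
    rw [norm_smul, hw]
    norm_num
  have hmin : (2 : ℝ) • w ∈ segMin e (e z ((-1 : ℝ) • v)) := by
    change dist _ _ = _
    rw [hn, hfl, ← hv]
    norm_num
  rw [hval s, hval t, segMin_dist_abs F.isExp hmin (by linarith) (by linarith) (by linarith)
    (by linarith), hn]
  have h1 : (t + 1) / 2 - (s + 1) / 2 = (t - s) * (1 / 2) := by ring
  rw [h1, abs_mul, abs_of_pos (by norm_num : (0 : ℝ) < 1 / 2)]
  ring

end

end Vale.Agent.P211.H580
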